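import Vale.Agent.P193.BH.Lift

/-!
P193, W6b: finite families of disjoint pieces over one base, and their permutations.
-/

namespace Vale.Agent.P193.Simple

open scoped Classical
open Equiv BH BH.SFT

noncomputable section

/-! ### Prefixes -/

lemma cat_left {a : List Bool} {i : ℕ} (h : i < a.length) (w : ℕ → Bool) : cat a w i = a[i] := by
  simp [cat, h]

lemma cat_right (a : List Bool) (w : ℕ → Bool) (i : ℕ) : cat a w (a.length + i) = w i := by
  simp [cat]

lemma cat_inj {a : List Bool} {w w' : ℕ → Bool} (h : cat a w = cat a w') : w = w' :=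
  funext fun i => by rw [← cat_right a w i, h, cat_right]

lemma cat_nil (w : ℕ → Bool) : cat [] w = w := by
  funext i; simp [cat]

variable {Γ : Type} [Group Γ] {S : BH.SFT Γ}

/-- Pieces whose prefixes differ somewhere are disjoint. -/
lemma disjoint_of_index {U V : Set S.X} {γ δ : Γ} {a b : List Bool} {i : ℕ} (ha : i < a.length)
    (hb : i < b.length) (h : a[i] ≠ b[i]) : Disjoint (S.piece U γ a) (S.piece V δ b) := by
  refine Set.disjoint_left.2 ?_
  rintro p ⟨x, -, w, rfl⟩ ⟨y, -, w', h'⟩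
  have := congrArg (fun q : S.Pt => q.2 i) h'
  simp only [cat_left ha, cat_left hb] at this
  exact h this

variable (S) in
/-- Finitely many disjoint pieces over one base. -/
structure Fam (U : Set S.X) (ι : Type*) where
  sh : ι → Γ
  pr : ι → List Bool
  disj : ∀ i j, i ≠ j → Disjoint (S.piece U (sh i) (pr i)) (S.piece U (sh j) (pr j))

namespace Fam

variable {U : Set S.X} {ι : Type*} (F : Fam S U ι)

/-- The parametrisation of the pieces. -/
def emb : ι × (U × (ℕ → Bool)) ↪ S.Pt where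
  toFun q := (S.act (F.sh q.1) q.2.1, cat (F.pr q.1) q.2.2)
  inj' := by
    rintro ⟨i, ⟨x, hx⟩, w⟩ ⟨j, ⟨y, hy⟩, w'⟩ h
    simp only at h
    have hij : i = j := by
      by_contra hne
      exact Set.disjoint_left.1 (F.disj i j hne) ⟨x, hx, w, rfl⟩ ⟨y, hy, w', h⟩
    subst hij
    obtain ⟨h1, h2⟩ := Prod.mk.inj h
    obtain rfl := (S.act (F.sh i)).injective h1
    rw [cat_inj h2]

/-- A permutation of the pieces. -/
def phi : Perm ι →* Perm S.Pt :=
  (Perm.viaEmbeddingHom F.emb).comp
    { toFun := fun σ => σ.prodCongr (Equiv.refl (U × (ℕ → Bool)))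
      map_one' := rfl
      map_mul' := fun _ _ => rfl }

lemma phi_in (σ : Perm ι) (i : ι) {x : S.X} (hx : x ∈ U) (w : ℕ → Bool) :
    F.phi σ (S.act (F.sh i) x, cat (F.pr i) w) =
      (S.act (F.sh (σ i)) x, cat (F.pr (σ i)) w) :=
  Perm.viaEmbedding_apply _ F.emb (i, ⟨x, hx⟩, w)

lemma phi_out (σ : Perm ι) {p : S.Pt} (hp : ∀ i, p ∉ S.piece U (F.sh i) (F.pr i)) :
    F.phi σ p = p :=
  Perm.viaEmbedding_apply_of_notMem _ F.emb p <| by
    rintro ⟨⟨i, ⟨x, hx⟩, w⟩, rfl⟩
    exact hp i ⟨x, hx, w, rfl⟩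

/-- The families are determined by their values. -/
lemma phi_ext {σ : Perm ι} {g : Perm S.Pt}
    (h1 : ∀ i, ∀ x ∈ U, ∀ w, g (S.act (F.sh i) x, cat (F.pr i) w) =
      (S.act (F.sh (σ i)) x, cat (F.pr (σ i)) w))
    (h2 : ∀ p, (∀ i, p ∉ S.piece U (F.sh i) (F.pr i)) → g p = p) : F.phi σ = g := by
  refine Equiv.ext fun p => ?_
  by_cases hp : ∀ i, p ∉ S.piece U (F.sh i) (F.pr i)
  · rw [phi_out F σ hp, h2 p hp]
  · push Not at hp
    obtain ⟨i, x, hx, w, rfl⟩ := hp
    rw [phi_in F σ i hx, h1 i x hx w]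

/-- The subfamily along an embedding. -/
def comp {κ : Type*} (e : κ ↪ ι) : Fam S U κ where
  sh := F.sh ∘ e
  pr := F.pr ∘ e
  disj i j h := F.disj (e i) (e j) (e.injective.ne h)

lemma phi_comp {κ : Type*} (e : κ ↪ ι) (σ : Perm κ) :
    (F.comp e).phi σ = F.phi (σ.viaEmbedding e) := by
  refine (F.comp e).phi_ext (fun k x hx w => ?_) fun p hp => ?_
  · show F.phi _ (S.act (F.sh (e k)) x, cat (F.pr (e k)) w) = _
    rw [F.phi_in _ _ hx, Perm.viaEmbedding_apply]
    rfl
  · by_cases h : ∀ i, p ∉ S.piece U (F.sh i) (F.pr i)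
    · exact F.phi_out _ h
    · push Not at h
      obtain ⟨i, x, hx, w, rfl⟩ := h
      have hi : i ∉ Set.range e := by
        rintro ⟨k, rfl⟩
        exact hp k ⟨x, hx, w, rfl⟩
      rw [F.phi_in _ _ hx, Perm.viaEmbedding_apply_of_notMem _ _ _ hi]

/-- Conjugation by a permutation that is affine on the pieces. -/
lemma phi_conj {F' : Fam S U ι} {g : Perm S.Pt}
    (h : ∀ i, ∀ x ∈ U, ∀ w, g (S.act (F.sh i) x, cat (F.pr i) w) =
      (S.act (F'.sh i) x, cat (F'.pr i) w)) (σ : Perm ι) :
    F'.phi σ = g * F.phi σ * g⁻¹ := by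
  refine F'.phi_ext (fun i x hx w => ?_) fun p hp => ?_
  · rw [Perm.mul_apply, Perm.mul_apply, ← h i x hx w, Perm.inv_def, Equiv.symm_apply_apply,
      F.phi_in σ i hx, h _ x hx w]
  · have : ∀ i, g⁻¹ p ∉ S.piece U (F.sh i) (F.pr i) := by
      rintro i ⟨x, hx, w, hq⟩
      refine hp i ⟨x, hx, w, ?_⟩
      rw [← h i x hx w, ← hq, Perm.inv_def, Equiv.apply_symm_apply]
    rw [Perm.mul_apply, Perm.mul_apply, F.phi_out _ this, Perm.inv_def, Equiv.apply_symm_apply]

/-- The cycle of a three-cycle is a generator. -/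
lemma three_mem [Fintype ι] [DecidableEq ι] (hU : IsClopen U) {σ : Perm ι}
    (hσ : σ.IsThreeCycle) : F.phi σ ∈ S.fullGroup := by
  obtain ⟨a, ha⟩ : σ.support.Nonempty := Finset.card_pos.1 (by rw [hσ.card_support]; norm_num)
  have h3 : σ (σ (σ a)) = a := by
    have := pow_orderOf_eq_one σ
    rw [hσ.orderOf] at this
    simpa [pow_succ, Perm.mul_apply] using DFunLike.congr_fun this a
  rw [Perm.mem_support] at ha
  let t : Fin 3 → ι := ![a, σ a, σ (σ a)]
  have ht : Function.Injective t := by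
    have h01 : σ a ≠ a := ha
    have h12 : σ (σ a) ≠ σ a := fun e => h01 (σ.injective e)
    have h02 : σ (σ a) ≠ a := fun e => h01 (by rw [← congrArg σ e, h3])
    intro i j hij
    fin_cases i <;> fin_cases j <;> simp [t] at hij <;> grind
  have hrot : ∀ i, σ (t i) = t (i + 1) := by
    intro i; fin_cases i <;> simp [t, h3]
  have hfix : ∀ l, (∀ i, t i ≠ l) → σ l = l := by
    intro l hl
    by_contra hne
    obtain ⟨n, hn⟩ := hσ.isCycle.exists_pow_eq ha hne
    have : ∀ n : ℕ, ∃ i, (σ ^ n) a = t i := by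
      intro n
      induction n with
      | zero => exact ⟨0, rfl⟩
      | succ n ih =>
        obtain ⟨i, hi⟩ := ih
        exact ⟨i + 1, by rw [pow_succ', Perm.mul_apply, hi, hrot]⟩
    obtain ⟨i, hi⟩ := this n
    exact hl i (hi.symm.trans hn)
  refine Subgroup.subset_closure ⟨⟨U, hU, fun i => F.sh (t i), fun i => F.pr (t i),
    fun i j h => F.disj _ _ (ht.ne h)⟩, fun i x hx w => ?_, fun p hp => ?_⟩
  · show F.phi σ (S.act (F.sh (t i)) x, cat (F.pr (t i)) w) = _
    rw [F.phi_in σ _ hx, hrot]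
  · by_cases h : ∀ l, p ∉ S.piece U (F.sh l) (F.pr l)
    · exact F.phi_out σ h
    · push Not at h
      obtain ⟨l, x, hx, w, rfl⟩ := h
      rw [F.phi_in σ l hx, hfix l fun i e => hp i (by subst e; exact ⟨x, hx, w, rfl⟩)]

/-- Even permutations of pieces lie in the group. -/
lemma alt_mem [Fintype ι] [DecidableEq ι] (hU : IsClopen U) {σ : Perm ι}
    (hσ : σ ∈ alternatingGroup ι) : F.phi σ ∈ S.fullGroup := by
  rw [← Perm.closure_three_cycles_eq_alternating] at hσ
  induction hσ using Subgroup.closure_induction with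
  | mem τ hτ => exact F.three_mem hU hτ
  | one => rw [map_one]; exact one_mem _
  | mul x y _ _ hx hy => rw [map_mul]; exact mul_mem hx hy
  | inv x _ hx => rw [map_inv]; exact inv_mem hx

/-- The same pieces over a smaller base. -/
def restrict {V : Set S.X} (h : V ⊆ U) : Fam S V ι where
  sh := F.sh
  pr := F.pr
  disj i j hij := Set.disjoint_of_subset (piece_mono h _ _) (piece_mono h _ _) (F.disj i j hij)

/-- Splitting the base. -/
lemma phi_split_base (V : Set S.X) (σ : Perm ι) :
    F.phi σ = (F.restrict (Set.inter_subset_left : U ∩ V ⊆ U)).phi σ *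
      (F.restrict (Set.sdiff_subset : U \ V ⊆ U)).phi σ := by
  set A := F.restrict (Set.inter_subset_left : U ∩ V ⊆ U)
  set B := F.restrict (Set.sdiff_subset : U \ V ⊆ U)
  refine F.phi_ext (fun i x hx w => ?_) fun p hp => ?_
  · rw [Perm.mul_apply]
    have hout : ∀ {W : Set S.X} (hW : W ⊆ U) (l : ι), x ∉ W → ∀ k,
        (S.act (F.sh l) x, cat (F.pr l) w) ∉ S.piece W (F.sh k) (F.pr k) := by
      rintro W hW l hxW k ⟨y, hy, w', e⟩
      have hlk : l = k := by
        by_contra hne
        exact Set.disjoint_left.1 (F.disj l k hne) ⟨x, hx, w, rfl⟩ ⟨y, hW hy, w', e⟩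
      subst hlk
      exact hxW ((S.act (F.sh l)).injective (Prod.mk.inj e).1 ▸ hy)
    by_cases hV : x ∈ V
    · rw [B.phi_out σ (hout Set.sdiff_subset i (fun h => h.2 hV))]
      exact A.phi_in σ i ⟨hx, hV⟩ w
    · rw [show B.phi σ (S.act (F.sh i) x, cat (F.pr i) w) = _ from B.phi_in σ i ⟨hx, hV⟩ w]
      exact A.phi_out σ (hout Set.inter_subset_left (σ i) (fun h => hV h.2))
  · rw [Perm.mul_apply, B.phi_out σ fun i h => hp i (piece_mono Set.sdiff_subset _ _ h),
      A.phi_out σ fun i h => hp i (piece_mono Set.inter_subset_left _ _ h)]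

/-- All prefixes followed by the same word. -/
def ext (r : List Bool) : Fam S U ι where
  sh := F.sh
  pr i := F.pr i ++ r
  disj i j h := Set.disjoint_of_subset (piece_append_subset _ _ _ _) (piece_append_subset _ _ _ _)
    (F.disj i j h)

/-- Splitting the prefixes. -/
lemma phi_split_pre (σ : Perm ι) :
    F.phi σ = (F.ext [false]).phi σ * (F.ext [true]).phi σ := by
  refine F.phi_ext (fun i x hx w => ?_) fun p hp => ?_
  · obtain ⟨b, z, rfl⟩ : ∃ b z, w = cat [b] z :=
      ⟨w 0, fun n => w (n + 1), by funext n; cases n <;> simp [cat]⟩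
    have hout : ∀ (b c : Bool) (l : ι), b ≠ c → ∀ k,
        (S.act (F.sh l) x, cat (F.pr l ++ [b]) z) ∉
          S.piece U (F.sh k) (F.pr k ++ [c]) := by
      rintro b c l hbc k ⟨y, hy, w', e⟩
      have hlk : l = k := by
        by_contra hne
        refine Set.disjoint_left.1 (F.disj l k hne)
          (piece_append_subset U (F.sh l) (F.pr l) [b] ⟨x, hx, z, rfl⟩) ?_
        rw [e]
        exact piece_append_subset U (F.sh k) (F.pr k) [c] ⟨y, hy, w', rfl⟩
      subst hlk
      have := congrFun (congrArg Prod.snd e) (F.pr l).length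
      simp [cat] at this
      exact hbc this
    have hin : ∀ c, (F.ext [c]).phi σ (S.act (F.sh i) x, cat (F.pr i ++ [c]) z) =
        (S.act (F.sh (σ i)) x, cat (F.pr (σ i) ++ [c]) z) := fun c =>
      (F.ext [c]).phi_in σ i hx z
    rw [Perm.mul_apply, ← cat_append, ← cat_append]
    cases b
    · rw [(F.ext [true]).phi_out σ (hout false true i (by decide))]
      exact hin false
    · rw [hin true]
      exact (F.ext [false]).phi_out σ (hout true false (σ i) (by decide))
  · rw [Perm.mul_apply, (F.ext [true]).phi_out σ fun i h => hp i (piece_append_subset _ _ _ _ h),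
      (F.ext [false]).phi_out σ fun i h => hp i (piece_append_subset _ _ _ _ h)]

end Fam

end

end Vale.Agent.P193.Simple
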