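import Vale.Agent.P193.Simple.Translation

/-!
P193, W6b: a non-trivial normalised subgroup contains every three-cycle of pieces, so the group of a
minimal subshift is simple.
-/

namespace Vale.Agent.P193.Simple

open scoped Classical commutatorElement
open Equiv BH BH.SFT

noncomputable section

variable {Γ : Type} [Group Γ] {S : BH.SFT Γ}

/-! ### Prefixes -/

/-- The first `n` letters. -/
def first (n : ℕ) (w : ℕ → Bool) : List Bool := List.ofFn fun i : Fin n => w i

/-- The sequence without its first `n` letters. -/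
def drop (n : ℕ) (w : ℕ → Bool) : ℕ → Bool := fun i => w (n + i)

lemma cat_first (n : ℕ) (w : ℕ → Bool) : cat (first n w) (drop n w) = w := by
  funext i
  by_cases h : i < n
  · simp [cat, first, h]
  · simp [cat, first, drop, h, Nat.add_sub_cancel' (not_lt.1 h)]

lemma cat_cat_first (a : List Bool) (n : ℕ) (w : ℕ → Bool) :
    cat (a ++ first n w) (drop n w) = cat a w := by
  rw [cat_append, cat_first]

lemma exists_suffix {b c : List Bool} {u u' : ℕ → Bool} (h : cat b u = cat c u')
    (hl : c.length ≤ b.length) : b = c ++ b.drop c.length := by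
  conv_lhs => rw [← List.take_append_drop c.length b]
  congr 1
  refine List.ext_getElem (by simpa using hl) fun i h1 h2 => ?_
  have := congrFun h i
  rw [cat_left (lt_of_lt_of_le h2 hl), cat_left h2] at this
  simpa using this

/-! ### Locally affine permutations -/

variable (S) in
/-- Near every point a translation and a replacement of a prefix. -/
def IsLoc (g : Perm S.Pt) : Prop :=
  ∀ x w, ∃ (U : Set S.X) (a b : List Bool) (γ : Γ) (t : ℕ → Bool),
    IsOpen U ∧ x ∈ U ∧ w = cat a t ∧ ∀ y ∈ U, ∀ v, g (y, cat a v) = (S.act γ y, cat b v)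

lemma isLoc_perm {c : S.Cyc} {g : Perm S.Pt} (hg : c.IsPerm S g) : IsLoc S g := by
  intro x w
  by_cases hp : ∀ i, (x, w) ∉ S.piece c.base (c.shift i) (c.pre i)
  · set L := (c.pre 0).length + (c.pre 1).length + (c.pre 2).length with hL
    have hle : ∀ i, (c.pre i).length ≤ L := fun i => by fin_cases i <;> simp [L] <;> omega
    refine ⟨⋂ i, {y | Has (c.pre i) w → S.act (c.shift i)⁻¹ y ∉ c.base}, first L w, first L w, 1,
      drop L w, isOpen_iInter_of_finite fun i => ?_, ?_, (cat_first L w).symm, fun y hy v => ?_⟩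
    · by_cases h : Has (c.pre i) w
      · simp only [h, forall_true_left]
        exact c.clopen.compl.isOpen.preimage (S.continuous_act _)
      · simp [h]
    · refine Set.mem_iInter.2 fun i ⟨u, hu⟩ hx => hp i ⟨_, hx, u, ?_⟩
      rw [act_act, mul_inv_cancel, act_one, hu]
    · rw [act_one]
      refine hg.2 _ fun i ⟨z, hz, u, e⟩ => ?_
      obtain ⟨e1, e2⟩ := Prod.mk.inj e
      refine Set.mem_iInter.1 hy i ⟨drop (c.pre i).length w, ?_⟩ ?_
      · have hw : ∀ j (hj : j < (c.pre i).length), w j = (c.pre i)[j] := fun j hj => by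
          have := congrFun e2 j
          rw [cat_left (show j < (first L w).length by simp [first]; exact lt_of_lt_of_le hj (hle i)),
            cat_left hj] at this
          simpa [first] using this
        funext j
        by_cases hj : j < (c.pre i).length
        · rw [cat_left hj, hw j hj]
        · simp [cat, hj, drop, Nat.add_sub_cancel' (not_lt.1 hj)]
      · rw [e1, act_act, inv_mul_cancel, act_one]
        exact hz
  · push Not at hp
    obtain ⟨i, z, hz, t, e⟩ := hp
    obtain ⟨rfl, rfl⟩ := Prod.mk.inj e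
    refine ⟨(S.act (c.shift i)⁻¹) ⁻¹' c.base, c.pre i, c.pre (i + 1),
      c.shift (i + 1) * (c.shift i)⁻¹, t, c.clopen.isOpen.preimage (S.continuous_act _), ?_, rfl,
      fun y hy v => ?_⟩
    · rw [Set.mem_preimage, act_act, inv_mul_cancel, act_one]
      exact hz
    · have := hg.1 i _ hy v
      rwa [act_act, mul_inv_cancel, act_one, act_act] at this

lemma isLoc_of_mem {g : Perm S.Pt} (hg : g ∈ S.fullGroup) : IsLoc S g := by
  induction hg using Subgroup.closure_induction with
  | mem g hg => exact isLoc_perm hg.choose_spec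
  | one =>
    exact fun x w => ⟨Set.univ, [], [], 1, w, isOpen_univ, trivial, (cat_nil w).symm,
      fun y _ v => by rw [Perm.one_apply, act_one]⟩
  | mul g f _ _ hg hf =>
    intro x w
    obtain ⟨U, a, b, γ, t, hU, hx, rfl, hfU⟩ := hf x w
    obtain ⟨W, c, d, δ, t', hW, hx', e, hgW⟩ := hg (S.act γ x) (cat b t)
    set r := first c.length t with hr
    have hl : c.length ≤ (b ++ r).length := by simp [r, first]
    have hbr : b ++ r = c ++ (b ++ r).drop c.length :=
      exists_suffix ((cat_cat_first b c.length t).trans e) hl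
    set s := (b ++ r).drop c.length
    refine ⟨U ∩ (S.act γ) ⁻¹' W, a ++ r, d ++ s, δ * γ, drop c.length t,
      hU.inter (hW.preimage (S.continuous_act γ)), ⟨hx, hx'⟩,
      (cat_cat_first a c.length t).symm, fun y hy v => ?_⟩
    rw [Perm.mul_apply, cat_append, hfU y hy.1, ← cat_append, hbr, cat_append, hgW _ hy.2,
      ← cat_append, act_act]
  | inv g _ hg =>
    intro x w
    obtain ⟨U, a, b, γ, t, hU, hx, e, hgU⟩ := hg (g⁻¹ (x, w)).1 (g⁻¹ (x, w)).2
    have hp : (x, w) = (S.act γ (g⁻¹ (x, w)).1, cat b t) := by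
      rw [← hgU _ hx t, ← e, Perm.inv_def, Prod.mk.eta, Equiv.apply_symm_apply]
    obtain ⟨hx1, hw1⟩ := Prod.mk.inj hp
    refine ⟨(S.act γ⁻¹) ⁻¹' U, b, a, γ⁻¹, t, hU.preimage (S.continuous_act _), ?_, hw1,
      fun y hy v => ?_⟩
    · rw [Set.mem_preimage, hx1, act_act, inv_mul_cancel, act_one]
      exact hx
    · rw [Perm.inv_def, Equiv.symm_apply_eq, hgU _ hy v, act_act, mul_inv_cancel, act_one]

/-! ### Standard families -/

/-- Five letters. -/
abbrev W5 : Type := Fin 5 → Bool

/-- Five letters as a list. -/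
def word (s : W5) : List Bool := List.ofFn s

@[simp] lemma word_length (s : W5) : (word s).length = 5 := List.length_ofFn

@[simp] lemma word_getElem (s : W5) (i : ℕ) (h : i < (word s).length) :
    (word s)[i] = s ⟨i, by simpa using h⟩ := List.getElem_ofFn _

/-- The first five letters of a prefix. -/
def trunc (p : List Bool) : W5 := fun i => p.getD i false

lemma trunc_word (s : W5) : trunc (word s) = s := by
  funext i
  simp [trunc, List.getD_eq_getElem?_getD, word_getElem]

lemma disjoint_of_trunc {U V : Set S.X} {γ δ : Γ} {p q : List Bool} (hp : 5 ≤ p.length)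
    (hq : 5 ≤ q.length) (h : trunc p ≠ trunc q) : Disjoint (S.piece U γ p) (S.piece V δ q) := by
  obtain ⟨i, hi⟩ := Function.ne_iff.1 h
  refine disjoint_of_index (i := i) (by omega) (by omega) ?_
  simpa [trunc, List.getD_eq_getElem?_getD, show (i : ℕ) < p.length by omega,
    show (i : ℕ) < q.length by omega] using hi

variable (S) in
/-- The thirty-two subpieces of a piece over `U`. -/
def std (U : Set S.X) (a : List Bool) : Fam S U W5 where
  sh _ := 1
  pr s := a ++ word s
  disj s s' h := by
    obtain ⟨i, hi⟩ := Function.ne_iff.1 h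
    refine disjoint_of_index (i := a.length + i) (by simp) (by simp) ?_
    simpa [List.getElem_append_right] using hi

lemma std_in (U : Set S.X) (a : List Bool) (σ : Perm W5) (x : S.X) (s : W5) (w : ℕ → Bool) :
    (std S U a).phi σ (x, cat (a ++ word s) w) =
      if x ∈ U then (x, cat (a ++ word (σ s)) w) else (x, cat (a ++ word s) w) := by
  split_ifs with hx
  · simpa [std, act_one] using (std S U a).phi_in σ s hx w
  · refine (std S U a).phi_out σ ?_
    rintro i ⟨y, hy, v, e⟩
    have h1 := (Prod.mk.inj e).1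
    simp only [std, act_one] at h1
    exact hx (h1 ▸ hy)

lemma std_out (U : Set S.X) (a : List Bool) (σ : Perm W5) {p : S.Pt}
    (hp : ∀ s : W5, ∀ w, p.2 ≠ cat (a ++ word s) w) : (std S U a).phi σ p = p := by
  refine (std S U a).phi_out σ ?_
  rintro i ⟨y, -, v, rfl⟩
  exact hp i v rfl

lemma std_commutator {U U' : Set S.X} (h : U' ⊆ U) (a : List Bool) (α β : Perm W5) :
    (std S U' a).phi ⁅α, β⁆ = ⁅(std S U a).phi α, (std S U' a).phi β⁆ := by
  refine Equiv.ext fun ⟨x, w⟩ => ?_
  rw [commutatorElement_def, commutatorElement_def, ← map_inv, ← map_inv]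
  simp only [Perm.mul_apply]
  by_cases hp : ∀ s : W5, ∀ v, w ≠ cat (a ++ word s) v
  · rw [std_out U' a _ hp, std_out U' a β⁻¹ hp, std_out U a α⁻¹ hp, std_out U' a β hp,
      std_out U a α hp]
  · push Not at hp
    obtain ⟨s, v, rfl⟩ := hp
    by_cases h' : x ∈ U'
    · rw [std_in U' a _ x s v, if_pos h', std_in U' a β⁻¹, if_pos h', std_in U a α⁻¹,
        if_pos (h h'), std_in U' a β, if_pos h', std_in U a α, if_pos (h h')]
      simp only [Perm.mul_apply]
    · by_cases h'' : x ∈ U
      · rw [std_in U' a _ x s v, if_neg h', std_in U' a β⁻¹, if_neg h', std_in U a α⁻¹,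
          if_pos h'', std_in U' a β, if_neg h', std_in U a α, if_pos h'']
        simp [Perm.inv_def]
      · rw [std_in U' a _ x s v, if_neg h', std_in U' a β⁻¹, if_neg h', std_in U a α⁻¹,
          if_neg h'', std_in U' a β, if_neg h', std_in U a α, if_neg h'']

/-- The cycle of the three indices. -/
def rot : Perm (Fin 3) := finRotate 3

lemma rot_apply (i : Fin 3) : rot i = i + 1 := by
  fin_cases i <;> rfl

lemma rot_alt : rot ∈ alternatingGroup (Fin 3) := by
  rw [Perm.mem_alternatingGroup, rot, sign_finRotate]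
  rfl

variable (S) in
/-- Three spare pieces. -/
def spare (U : Set S.X) (r : Fin 5 ↪ W5) : Fam S U (Fin 3) :=
  (std S U []).comp ((Fin.castLEEmb (by omega)).trans r)

/-- Three pieces can be moved to spare ones. -/
lemma transport {U : Set S.X} (hU : IsClopen U) (F : Fam S U (Fin 3))
    (hlen : ∀ i, 5 ≤ (F.pr i).length) (r : Fin 5 ↪ W5) (hr : ∀ i k, trunc (F.pr i) ≠ r k) :
    ∃ g ∈ S.fullGroup, (spare S U r).phi rot = g * F.phi rot * g⁻¹ := by
  let J : Fam S U (Fin 3 ⊕ Fin 5) :=
    ⟨Sum.elim F.sh fun _ => 1, Sum.elim F.pr fun k => word (r k), by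
      rintro (i | i) (j | j) hij
      · exact F.disj i j fun e => hij (by rw [e])
      · exact disjoint_of_trunc (hlen i) (by simp) (by simpa [trunc_word] using hr i j)
      · exact disjoint_of_trunc (by simp) (hlen j) (by simpa [trunc_word] using (hr j i).symm)
      · exact disjoint_of_trunc (by simp) (by simp)
          (by simpa [trunc_word] using fun e => hij (by rw [e]))⟩
  let π : Perm (Fin 3 ⊕ Fin 5) :=
    swap (.inl 0) (.inr 0) * swap (.inl 1) (.inr 1) * swap (.inl 2) (.inr 2) *
      swap (.inr 3) (.inr 4)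
  have hπ : π ∈ alternatingGroup (Fin 3 ⊕ Fin 5) := by
    simp only [π, Perm.mem_alternatingGroup, Perm.sign_mul]
    rw [Perm.sign_swap (by decide), Perm.sign_swap (by decide), Perm.sign_swap (by decide),
      Perm.sign_swap (by decide)]
    rfl
  refine ⟨J.phi π, J.alt_mem hU hπ, Fam.phi_conj F (fun i x hx w => ?_) rot⟩
  have := J.phi_in π (.inl i) hx w
  have hπi : π (.inl i) = .inr (Fin.castLE (by omega) i) := by
    fin_cases i <;> decide
  rw [hπi] at this
  simpa [J, spare, std, Fam.comp] using this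

/-! ### Normalised subgroups -/

variable (H : Subgroup (Perm S.Pt)) (hnorm : ∀ g ∈ S.fullGroup, ∀ h ∈ H, g * h * g⁻¹ ∈ H)

include hnorm in
lemma conj_mem_iff {g : Perm S.Pt} (hg : g ∈ S.fullGroup) (h : Perm S.Pt) :
    g * h * g⁻¹ ∈ H ↔ h ∈ H := by
  refine ⟨fun hh => ?_, fun hh => hnorm g hg h hh⟩
  have := hnorm g⁻¹ (inv_mem hg) _ hh
  simpa [mul_assoc] using this

include hnorm in
/-- A normalised subgroup meeting the even permutations of some pieces non-trivially contains
them all. -/
lemma alt_all {U : Set S.X} (hU : IsClopen U) {ι : Type*} [Fintype ι] [DecidableEq ι]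
    (hι : 5 ≤ Nat.card ι) (F : Fam S U ι) {σ : Perm ι} (hσ : σ ∈ alternatingGroup ι)
    (h1 : σ ≠ 1) (hmem : F.phi σ ∈ H) : ∀ τ ∈ alternatingGroup ι, F.phi τ ∈ H := by
  let ψ : alternatingGroup ι →* Perm S.Pt := F.phi.comp (alternatingGroup ι).subtype
  have hN : (H.comap ψ).Normal := ⟨fun n hn g => by
    show ψ (g * n * g⁻¹) ∈ H
    rw [map_mul, map_mul, map_inv]
    exact hnorm _ (F.alt_mem hU g.2) _ hn⟩
  have := alternatingGroup.isSimpleGroup (α := ι) hι
  have htop : H.comap ψ = ⊤ := hN.eq_bot_or_eq_top.resolve_left fun hbot => h1 <| by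
    have : (⟨σ, hσ⟩ : alternatingGroup ι) ∈ H.comap ψ := hmem
    rw [hbot, Subgroup.mem_bot] at this
    exact congrArg Subtype.val this
  intro τ hτ
  have : (⟨τ, hτ⟩ : alternatingGroup ι) ∈ H.comap ψ := by rw [htop]; trivial
  exact this

include hnorm in
/-- All even permutations of the subpieces over a smaller base. -/
lemma std_mem {U U' : Set S.X} (hU' : IsClopen U') (h : U' ⊆ U) {a : List Bool}
    (hA : ∀ α ∈ alternatingGroup W5, (std S U a).phi α ∈ H) :
    ∀ α ∈ alternatingGroup W5, (std S U' a).phi α ∈ H := by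
  have hmem : ∀ m ∈ commutator (alternatingGroup W5), (std S U' a).phi (m : Perm W5) ∈ H := by
    intro m hm
    rw [commutator_eq_closure] at hm
    induction hm using Subgroup.closure_induction with
    | mem m hm =>
      obtain ⟨α, β, rfl⟩ := hm
      rw [show ((⁅α, β⁆ : alternatingGroup W5) : Perm W5) = ⁅(α : Perm W5), (β : Perm W5)⁆
          from rfl, std_commutator h, commutatorElement_def, mul_assoc, mul_assoc]
      refine mul_mem (hA _ α.2) ?_
      rw [← mul_assoc, ← map_inv (std S U a).phi]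
      exact hnorm _ ((std S U' a).alt_mem hU' β.2) _ (hA _ (inv_mem α.2))
    | one => rw [Subgroup.coe_one, map_one]; exact one_mem H
    | mul p q _ _ hp hq => rw [Subgroup.coe_mul, map_mul]; exact mul_mem hp hq
    | inv p _ hp => rw [Subgroup.coe_inv, map_inv]; exact inv_mem hp
  intro α hα
  refine hmem ⟨α, hα⟩ ?_
  rw [commutator_alternatingGroup_eq_top (by simp)]
  exact Subgroup.mem_top _

include hnorm in
/-- Three pieces with long prefixes over a base that a translation takes into `U`. -/
lemma long_mem {U : Set S.X} {a : List Bool}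
    (hA : ∀ α ∈ alternatingGroup W5, (std S U a).phi α ∈ H) {V : Set S.X} (hV : IsClopen V)
    (F : Fam S V (Fin 3)) (hlen : ∀ i, 5 ≤ (F.pr i).length) (ε : Γ)
    (hε : ∀ x ∈ V, S.act ε x ∈ U) : F.phi rot ∈ H := by
  obtain ⟨e⟩ := Function.Embedding.nonempty_of_card_le
    (show Fintype.card (Fin 3) ≤ Fintype.card W5 by simp)
  let Q : Fam S V (Fin 3) :=
    ⟨fun _ => ε, fun i => a ++ word (e i), fun i j hij => by
      obtain ⟨k, hk⟩ := Function.ne_iff.1 (e.injective.ne hij)
      refine disjoint_of_index (i := a.length + k) (by simp) (by simp) ?_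
      simpa [List.getElem_append_right] using hk⟩
  set V' : Set S.X := (S.act ε⁻¹) ⁻¹' V
  have hQ : Q.phi rot ∈ H := by
    have hV' : V' ⊆ U := fun y hy => by
      have := hε _ hy
      rwa [act_act, mul_inv_cancel, act_one] at this
    have hQe : Q.phi rot = ((std S V' a).comp e).phi rot := by
      refine Q.phi_ext (fun i x hx w => ?_) fun p hp => ?_
      · have hx' : S.act ε x ∈ V' := by
          rw [Set.mem_preimage, act_act, inv_mul_cancel, act_one]; exact hx
        simpa [Q, std, Fam.comp, act_one] using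
          ((std S V' a).comp e).phi_in rot i hx' w
      · refine ((std S V' a).comp e).phi_out rot fun i ⟨y, hy, w, h⟩ => hp i ⟨_, hy, w, ?_⟩
        rw [h]
        simp [Q, std, Fam.comp, act_one, act_act]
    rw [hQe, Fam.phi_comp]
    refine std_mem H hnorm (hV.preimage (S.continuous_act _)) hV' hA _ ?_
    rw [Perm.mem_alternatingGroup, Perm.viaEmbedding, Perm.sign_extendDomain]
    exact rot_alt
  set B : Finset W5 := Finset.univ.image (fun i => trunc (F.pr i)) ∪
    Finset.univ.image (fun i => trunc (Q.pr i))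
  have hB : B.card ≤ 6 := (Finset.card_union_le _ _).trans
    (show _ + _ ≤ 3 + 3 from add_le_add
      (Finset.card_image_le.trans (by simp)) (Finset.card_image_le.trans (by simp)))
  obtain ⟨r⟩ := Function.Embedding.nonempty_of_card_le
    (show Fintype.card (Fin 5) ≤ Fintype.card {s : W5 // s ∉ B} by
      simp [Fintype.card_subtype_compl]; omega)
  let r' : Fin 5 ↪ W5 := r.trans (Function.Embedding.subtype _)
  have hr : ∀ (P : Fam S V (Fin 3)), (∀ i, trunc (P.pr i) ∈ B) →
      ∀ i k, trunc (P.pr i) ≠ r' k := fun P hP i k he => (r k).2 (by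
        have := hP i
        rw [he] at this
        exact this)
  obtain ⟨g, hg, hgF⟩ := transport hV F hlen r' (hr F fun i =>
    Finset.mem_union_left _ (Finset.mem_image_of_mem _ (Finset.mem_univ i)))
  obtain ⟨f, hf, hfQ⟩ := transport hV Q (fun i => by simp [Q]) r' (hr Q fun i =>
    Finset.mem_union_right _ (Finset.mem_image_of_mem (fun i => trunc (Q.pr i)) (Finset.mem_univ i)))
  rw [← conj_mem_iff H hnorm hg, ← hgF, hfQ, conj_mem_iff H hnorm hf]
  exact hQ

include hnorm in
/-- A non-trivial normalised subgroup contains all even permutations of the subpieces of some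
piece. -/
lemma exists_std [T2Space S.X] [CompactSpace S.X] [TotallyDisconnectedSpace S.X]
    (hHG : H ≤ S.fullGroup) {h : Perm S.Pt} (hh : h ∈ H) (h1 : h ≠ 1) :
    ∃ (U : Set S.X) (a : List Bool), IsClopen U ∧ U.Nonempty ∧
      ∀ α ∈ alternatingGroup W5, (std S U a).phi α ∈ H := by
  obtain ⟨⟨x, w⟩, hxw⟩ : ∃ p, h p ≠ p := by
    by_contra! hc
    exact h1 (Equiv.ext hc)
  obtain ⟨U, a, b, γ, t, hU, hx, rfl, hUh⟩ := isLoc_of_mem (hHG hh) x w
  rw [hUh x hx t] at hxw
  obtain ⟨U₁, r, hU₁, hxU₁, hU₁U, hcross⟩ : ∃ (U₁ : Set S.X) (r : List Bool), IsOpen U₁ ∧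
      x ∈ U₁ ∧ U₁ ⊆ U ∧ ∀ s s' : List Bool,
        Disjoint (S.piece U₁ 1 (a ++ r ++ s)) (S.piece U₁ γ (b ++ r ++ s')) := by
    by_cases hγ : S.act γ x = x
    · obtain ⟨i, hi⟩ := Function.ne_iff.1 (fun e => hxw (Prod.ext hγ e) : cat b t ≠ cat a t)
      refine ⟨U, first (i + 1) t, hU, hx, subset_rfl, fun s s' => ?_⟩
      refine disjoint_of_index (i := i) (by simp [first]; omega) (by simp [first]; omega) ?_
      rw [← cat_left (by simp [first]; omega) (drop (i + 1) t),
        ← cat_left (by simp [first]; omega) (drop (i + 1) t)]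
      have key : ∀ (c : List Bool) (u : List Bool) (v : ℕ → Bool),
          cat (c ++ first (i + 1) t ++ u) v i = cat c t i := fun c u v => by
        rw [cat_append, cat_left (show i < (c ++ first (i + 1) t).length by simp [first]; omega),
          ← cat_left (show i < (c ++ first (i + 1) t).length by simp [first]; omega)
            (drop (i + 1) t), cat_cat_first]
      rw [key, key]
      exact fun e => hi e.symm
    · obtain ⟨A, B, hA, hB, hxA, hxB, hd⟩ := t2_separation (Ne.symm hγ)
      refine ⟨U ∩ A ∩ (S.act γ) ⁻¹' B, [], (hU.inter hA).inter (hB.preimage (S.continuous_act γ)),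
        ⟨⟨hx, hxA⟩, hxB⟩, fun y hy => hy.1.1, fun s s' => Set.disjoint_left.2 ?_⟩
      rintro p ⟨y, hy, v, rfl⟩ ⟨z, hz, v', e⟩
      refine Set.disjoint_left.1 hd hy.1.2 ?_
      have := (Prod.mk.inj e).1
      rw [act_one] at this
      rw [this]
      exact hz.2
  obtain ⟨U₂, hU₂, hxU₂, hsub⟩ := compact_exists_isClopen_in_isOpen hU₁ hxU₁
  let J : Fam S U₂ (W5 ⊕ W5) :=
    ⟨Sum.elim (fun _ => 1) fun _ => γ,
      Sum.elim (fun s => a ++ r ++ word s) fun s => b ++ r ++ word s, by
      have hc : ∀ s s' : W5, Disjoint (S.piece U₂ 1 (a ++ r ++ word s))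
          (S.piece U₂ γ (b ++ r ++ word s')) := fun s s' =>
        Set.disjoint_of_subset (piece_mono hsub _ _) (piece_mono hsub _ _) (hcross _ _)
      have hs : ∀ (δ : Γ) (c : List Bool) (s s' : W5), s ≠ s' →
          Disjoint (S.piece U₂ δ (c ++ word s)) (S.piece U₂ δ (c ++ word s')) := by
        intro δ c s s' hne
        obtain ⟨k, hk⟩ := Function.ne_iff.1 hne
        refine disjoint_of_index (i := c.length + k) (by simp) (by simp) ?_
        simpa [List.getElem_append_right] using hk
      rintro (s | s) (s' | s') hne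
      · exact hs 1 _ s s' fun e => hne (by rw [e])
      · exact hc s s'
      · exact (hc s' s).symm
      · exact hs γ _ s s' fun e => hne (by rw [e])⟩
  let s : Fin 3 → W5 := ![fun _ => false, fun _ => true, fun k => decide (k = 0)]
  have hs01 : s 0 ≠ s 1 := fun e => Bool.false_ne_true (congrFun e 0)
  have hs02 : s 0 ≠ s 2 := fun e => by simpa [s] using congrFun e 0
  have hs12 : s 1 ≠ s 2 := fun e => by simpa [s] using congrFun e 1
  set σ : Perm W5 := swap (s 0) (s 1) * swap (s 1) (s 2)
  have hσ : σ ∈ alternatingGroup W5 := by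
    simp [σ, Perm.mem_alternatingGroup, Perm.sign_swap hs01, Perm.sign_swap hs12]
  let el : W5 ↪ W5 ⊕ W5 := Function.Embedding.inl
  let er : W5 ↪ W5 ⊕ W5 := Function.Embedding.inr
  have halt : ∀ (e : W5 ↪ W5 ⊕ W5), σ.viaEmbedding e ∈ alternatingGroup (W5 ⊕ W5) := fun e => by
    rw [Perm.mem_alternatingGroup, Perm.viaEmbedding, Perm.sign_extendDomain]
    exact hσ
  have key : J.phi (σ.viaEmbedding er) = h * J.phi (σ.viaEmbedding el) * h⁻¹ := by
    rw [← Fam.phi_comp, ← Fam.phi_comp]
    refine Fam.phi_conj (J.comp el) (fun i y hy v => ?_) σ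
    show h (S.act 1 y, cat (a ++ r ++ word i) v) = (S.act γ y, cat (b ++ r ++ word i) v)
    rw [act_one, List.append_assoc a, cat_append, hUh y (hU₁U (hsub hy)), ← cat_append,
      ← List.append_assoc]
  have hmem : J.phi (σ.viaEmbedding er * (σ.viaEmbedding el)⁻¹) ∈ H := by
    rw [map_mul, map_inv, key]
    simpa [mul_assoc] using mul_mem hh (hnorm _ (J.alt_mem hU₂ (halt el)) _ (inv_mem hh))
  have hne : σ.viaEmbedding er * (σ.viaEmbedding el)⁻¹ ≠ 1 := by
    rw [ne_eq, mul_inv_eq_one]
    intro e
    have := DFunLike.congr_fun e (el (s 0))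
    rw [Perm.viaEmbedding_apply_of_notMem _ _ _ (by simp [el, er]), Perm.viaEmbedding_apply]
      at this
    exact hs01 ((el.injective this).trans (by simp [σ, swap_apply_of_ne_of_ne hs01 hs02]))
  have hall := alt_all H hnorm hU₂ (by simp) J (mul_mem (halt er) (inv_mem (halt el))) hne hmem
  refine ⟨U₂, a ++ r, hU₂, ⟨x, hxU₂⟩, fun α hα => ?_⟩
  rw [show std S U₂ (a ++ r) = J.comp el from rfl, Fam.phi_comp]
  refine hall _ ?_
  rw [Perm.mem_alternatingGroup, Perm.viaEmbedding, Perm.sign_extendDomain]
  exact hα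

include hnorm in
/-- The subgroup contains every three-cycle. -/
lemma cyc_mem [CompactSpace S.X] {U : Set S.X} (hU : IsOpen U) {a : List Bool}
    (hA : ∀ α ∈ alternatingGroup W5, (std S U a).phi α ∈ H)
    (hmin : ∀ x, ∃ ε, S.act ε x ∈ U) {V : Set S.X} (hV : IsClopen V) (F : Fam S V (Fin 3)) :
    F.phi rot ∈ H := by
  have hU' : ∀ n (V : Set S.X) (hV : IsClopen V) (F : Fam S V (Fin 3)),
      (∀ i, 5 ≤ (F.pr i).length + n) → ∀ ε, (∀ x ∈ V, S.act ε x ∈ U) → F.phi rot ∈ H := by
    intro n
    induction n with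
    | zero => exact fun V hV F hl ε hε => long_mem H hnorm hA hV F hl ε hε
    | succ n ih =>
      intro V hV F hl ε hε
      rw [F.phi_split_pre]
      refine mul_mem (ih V hV _ (fun i => ?_) ε hε) (ih V hV _ (fun i => ?_) ε hε) <;>
      · have := hl i
        simp [Fam.ext]
        omega
  -- clopen pieces inside the members of the cover
  choose W hW hxW hWsub using fun x : S.X =>
    compact_exists_isClopen_in_isOpen
      (hU.preimage (S.continuous_act (hmin x).choose)) (hmin x).choose_spec
  obtain ⟨T', hT'⟩ := isCompact_univ.elim_finite_subcover W (fun x => (hW x).isOpen)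
    fun x _ => Set.mem_iUnion.2 ⟨x, hxW x⟩
  have hind : ∀ (T : Finset S.X) (V : Set S.X) (hV : IsClopen V) (F : Fam S V (Fin 3)),
      V ⊆ ⋃ x ∈ T, W x → F.phi rot ∈ H := by
    intro T
    induction T using Finset.induction_on with
    | empty =>
      intro V hV F hsub
      have : F.phi rot = 1 := F.phi_ext (fun i x hx => by simpa using hsub hx) fun p _ => rfl
      rw [this]
      exact one_mem H
    | insert x T _ ih =>
      intro V hV F hsub
      rw [F.phi_split_base (W x)]
      refine mul_mem (hU' 5 _ (hV.inter (hW x)) _ (fun i => by omega) _ fun y hy => hWsub x hy.2)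
        (ih _ (IsClopen.diff hV (hW x)) _ fun y hy => ?_)
      have h := hsub hy.1
      rw [Finset.set_biUnion_insert] at h
      exact h.resolve_left hy.2
  exact hind T' V hV F fun y _ => hT' (Set.mem_univ y)

lemma isClosed_carrier : IsClosed S.carrier := by
  have e : S.carrier = ⋂ γ, (fun x => S.window x γ) ⁻¹' {p | S.allowed p} := by
    ext x; simp [SFT.carrier]
  rw [e]
  exact isClosed_iInter fun γ =>
    (isClosed_discrete _).preimage (continuous_pi fun p => continuous_apply _)

/-- The group is simple. -/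
theorem simple : SimpleStatement := by
  intro Γ _ S hS
  have : CompactSpace S.X := isCompact_iff_compactSpace.1 isClosed_carrier.isCompact
  obtain ⟨x⟩ := hS.nonempty
  let w : ℕ → Bool := fun _ => false
  let F : Fam S Set.univ (Fin 3) :=
    (std S Set.univ []).comp ⟨![fun _ => false, fun _ => true, fun k => decide (k = 0)], by
      decide⟩
  have hF : (⟨F.phi rot, F.alt_mem isClopen_univ rot_alt⟩ : S.fullGroup) ≠ 1 := by
    intro e
    have := DFunLike.congr_fun (congrArg Subtype.val e) (x, cat (word fun _ => false) w)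
    have h := F.phi_in rot 0 (Set.mem_univ x) w
    simp [F, std, Fam.comp, act_one, rot_apply] at h
    have h2 := congrArg (fun q : S.Pt => q.2 0) (h.symm.trans this)
    simp [cat, word] at h2
  refine { exists_pair_ne := ⟨_, _, hF⟩, eq_bot_or_eq_top_of_normal := fun N hN => ?_ }
  by_cases hbot : N = ⊥
  · exact Or.inl hbot
  right
  obtain ⟨g, hg, hg1⟩ : ∃ g ∈ N, g ≠ 1 := by
    by_contra! h
    exact hbot ((Subgroup.eq_bot_iff_forall N).2 h)
  let H := N.map S.fullGroup.subtype
  have hHG : H ≤ S.fullGroup := Subgroup.map_subtype_le N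
  have hnorm : ∀ g ∈ S.fullGroup, ∀ h ∈ H, g * h * g⁻¹ ∈ H := by
    rintro g hg _ ⟨n, hn, rfl⟩
    exact ⟨⟨g, hg⟩ * n * ⟨g, hg⟩⁻¹, hN.conj_mem n hn _, rfl⟩
  obtain ⟨U, a, hU, ⟨y, hy⟩, hA⟩ := exists_std H hnorm hHG (h := (g : Perm S.Pt))
    ⟨g, hg, rfl⟩ (fun e => hg1 (Subtype.ext e))
  have hmin : ∀ z, ∃ ε, S.act ε z ∈ U := by
    intro z
    obtain ⟨O, hO, rfl⟩ := isOpen_induced_iff.1 hU.isOpen
    obtain ⟨I, W, hW, hsub⟩ := isOpen_pi_iff.1 hO y.1 hy
    obtain ⟨ε, hε⟩ := hS.minimal z y I
    exact ⟨ε, hsub fun u hu => by rw [hε u hu]; exact (hW u hu).2⟩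
  have hle : S.fullGroup ≤ H := by
    refine (Subgroup.closure_le _).2 ?_
    rintro g ⟨c, hc⟩
    let C : Fam S c.base (Fin 3) := ⟨c.shift, c.pre, c.disjoint⟩
    have : C.phi rot = g := C.phi_ext (fun i z hz v => by rw [rot_apply]; exact hc.1 i z hz v) hc.2
    rw [SetLike.mem_coe, ← this]
    exact cyc_mem H hnorm hU.isOpen hA hmin c.clopen C
  refine eq_top_iff.2 fun n _ => ?_
  obtain ⟨m, hm, e⟩ := hle n.2
  exact (Subtype.ext e : m = n) ▸ hm

end

end Vale.Agent.P193.Simple
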