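import Vale.Agent.P193.Simple.Fam

/-!
P193, W6b: the translations are products of three-cycles of pieces.
-/

namespace Vale.Agent.P193.Simple

open scoped Classical
open Equiv BH BH.SFT

noncomputable section

variable {Γ : Type} [Group Γ] {S : BH.SFT Γ}

/-- The sequence starts with the prefix. -/
def Has (a : List Bool) (w : ℕ → Bool) : Prop := ∃ v, w = cat a v

variable (S) in
/-- The translation on one prefix. -/
def part (a : List Bool) (γ : Γ) : Perm S.Pt where
  toFun p := if Has a p.2 then (S.act γ p.1, p.2) else p
  invFun p := if Has a p.2 then ((S.act γ).symm p.1, p.2) else p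
  left_inv p := by by_cases h : Has a p.2 <;> simp [h]
  right_inv p := by by_cases h : Has a p.2 <;> simp [h]

lemma part_apply (a : List Bool) (γ : Γ) (p : S.Pt) :
    part S a γ p = if Has a p.2 then (S.act γ p.1, p.2) else p := rfl

/-- Opposite translations on two disjoint prefixes. -/
lemma pair_mem {a b : List Bool} {i : ℕ} (ha : i < a.length) (hb : i < b.length)
    (hab : a[i] ≠ b[i]) (γ : Γ) : part S a γ * part S b γ⁻¹ ∈ S.fullGroup := by
  have hd : ∀ (δ : Γ) (u v : Bool × Bool), u ≠ v →
      Disjoint
        (S.piece Set.univ (if u.1 then δ else 1) ((if u.1 then a else b) ++ [u.2]))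
        (S.piece Set.univ (if v.1 then δ else 1) ((if v.1 then a else b) ++ [v.2])) := by
    rintro δ ⟨u, u'⟩ ⟨v, v'⟩ huv
    by_cases h : u = v
    · subst h
      have hne : u' ≠ v' := fun e => huv (by rw [e])
      refine disjoint_of_index (i := (if u then a else b).length) (by simp) (by simp) ?_
      simpa using hne
    · refine disjoint_of_index (i := i)
        (by cases u <;> simp <;> omega) (by cases v <;> simp <;> omega) ?_
      cases u <;> cases v <;> first | exact absurd rfl h | skip
      · show (b ++ [u'])[i]'(by simp; omega) ≠ (a ++ [v'])[i]'(by simp; omega)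
        rw [List.getElem_append_left hb, List.getElem_append_left ha]
        exact Ne.symm hab
      · show (a ++ [u'])[i]'(by simp; omega) ≠ (b ++ [v'])[i]'(by simp; omega)
        rw [List.getElem_append_left ha, List.getElem_append_left hb]
        exact hab
  let F : Γ → Fam S Set.univ (Bool × Bool) := fun δ =>
    ⟨fun u => if u.1 then δ else 1, fun u => (if u.1 then a else b) ++ [u.2], hd δ⟩
  let σ : Perm (Bool × Bool) := Equiv.boolNot.prodCongr (Equiv.refl Bool)
  have hσ : σ ∈ alternatingGroup (Bool × Bool) := by
    rw [Perm.mem_alternatingGroup, show σ = swap (false, false) (true, false) *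
      swap (false, true) (true, true) by decide, Perm.sign_mul, Perm.sign_swap (by decide),
      Perm.sign_swap (by decide)]
    rfl
  have key : part S a γ * part S b γ⁻¹ = (F γ).phi σ * (F 1).phi σ := by
    refine Equiv.ext fun ⟨x, w⟩ => ?_
    have hnot : ∀ v v', cat a v ≠ cat b v' := fun v v' e => hab <| by
      have := congrFun e i
      rwa [cat_left ha, cat_left hb] at this
    have hdec : ∀ v : ℕ → Bool, v = cat [v 0] fun n => v (n + 1) := fun v => by
      funext n; cases n <;> simp [cat]
    by_cases hwa : Has a w
    · obtain ⟨v, rfl⟩ := hwa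
      rw [hdec v, ← cat_append]
      set z := fun n => v (n + 1)
      have h1 : Has a (cat (a ++ [v 0]) z) := ⟨cat [v 0] z, cat_append _ _ _⟩
      have h2 : ¬ Has b (cat (a ++ [v 0]) z) := by
        rintro ⟨v', e⟩; rw [cat_append] at e; exact hnot _ _ e
      have e1 : (F 1).phi σ (x, cat (a ++ [v 0]) z) = (x, cat (b ++ [v 0]) z) := by
        have := (F 1).phi_in σ (true, v 0) (Set.mem_univ x) z
        simpa [F, σ, act_one] using this
      have e2 : (F γ).phi σ (x, cat (b ++ [v 0]) z) = (S.act γ x, cat (a ++ [v 0]) z) := by
        have := (F γ).phi_in σ (false, v 0) (Set.mem_univ x) z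
        simpa [F, σ, act_one] using this
      rw [Perm.mul_apply, Perm.mul_apply, e1, e2, part_apply, part_apply, if_neg h2, if_pos h1]
    · by_cases hwb : Has b w
      · obtain ⟨v, rfl⟩ := hwb
        rw [hdec v, ← cat_append]
        set z := fun n => v (n + 1)
        have h1 : Has b (cat (b ++ [v 0]) z) := ⟨cat [v 0] z, cat_append _ _ _⟩
        have h2 : ¬ Has a (cat (b ++ [v 0]) z) := by
          rintro ⟨v', e⟩; rw [cat_append] at e; exact hnot _ _ e.symm
        have e1 : (F 1).phi σ (x, cat (b ++ [v 0]) z) = (x, cat (a ++ [v 0]) z) := by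
          have := (F 1).phi_in σ (false, v 0) (Set.mem_univ x) z
          simpa [F, σ, act_one] using this
        have e2 : (F γ).phi σ (x, cat (a ++ [v 0]) z) =
            (S.act γ⁻¹ x, cat (b ++ [v 0]) z) := by
          have := (F γ).phi_in σ (true, v 0) (Set.mem_univ (S.act γ⁻¹ x)) z
          simpa [F, σ, act_one, act_act] using this
        rw [Perm.mul_apply, Perm.mul_apply, e1, e2, part_apply, part_apply, if_pos h1, if_neg]
        exact h2
      · have hout : ∀ δ u, (x, w) ∉ S.piece Set.univ ((F δ).sh u) ((F δ).pr u) := by
          rintro δ ⟨u, u'⟩ ⟨y, -, v, e⟩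
          have e' := (Prod.mk.inj e).2
          rw [show (F δ).pr (u, u') = (if u then a else b) ++ [u'] from rfl, cat_append] at e'
          cases u
          · exact hwb ⟨_, e'⟩
          · exact hwa ⟨_, e'⟩
        rw [Perm.mul_apply, Perm.mul_apply, (F 1).phi_out σ (hout 1), (F γ).phi_out σ (hout γ),
          part_apply, part_apply, if_neg hwb, if_neg hwa]
  rw [key]
  exact mul_mem ((F γ).alt_mem isClopen_univ hσ) ((F 1).alt_mem isClopen_univ hσ)

lemma has_cons (b : Bool) (a : List Bool) (w : ℕ → Bool) :
    Has (b :: a) w ↔ w 0 = b ∧ Has a (fun n => w (n + 1)) := by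
  constructor
  · rintro ⟨v, rfl⟩
    refine ⟨by simp [cat], v, ?_⟩
    funext n; simp [cat]
  · rintro ⟨h0, v, hv⟩
    refine ⟨v, ?_⟩
    funext n
    cases n with
    | zero => simp [cat, h0]
    | succ n =>
      have := congrFun hv n
      simpa [cat] using this

lemma has_nil (w : ℕ → Bool) : Has [] w := ⟨w, (cat_nil w).symm⟩

/-- Every translation is a product of three-cycles of pieces. -/
theorem translation : TranslationStatement := by
  intro Γ _ S γ
  have h01 : part S [false, true] γ ∈ S.fullGroup := by
    have h := mul_mem (pair_mem (S := S) (a := [false]) (b := [true]) (i := 0) (by simp) (by simp)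
        (by simp) γ)
      (pair_mem (S := S) (a := [false, false]) (b := [true]) (i := 0) (by simp) (by simp)
        (by simp) γ⁻¹)
    convert h using 1
    refine Equiv.ext fun ⟨x, w⟩ => ?_
    cases h0 : w 0 <;> cases h1 : w 1 <;>
      simp [part_apply, has_cons, has_nil, h0, h1, act_act, act_one]
  have hsub : ∀ (a : List Bool) (i : ℕ) (ha : i < a.length) (hi : i < 2),
      a[i] ≠ [false, true][i] → part S a γ ∈ S.fullGroup := by
    intro a i ha hi hne
    have h := mul_mem (pair_mem (S := S) ha (by simpa using hi) hne γ) h01
    convert h using 1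
    refine Equiv.ext fun ⟨x, w⟩ => ?_
    by_cases hw : Has [false, true] w
    · have hn : ¬ Has a w := by
        rintro ⟨v, rfl⟩
        obtain ⟨v', e⟩ := hw
        have := congrFun e i
        rw [cat_left ha, cat_left (by simpa using hi)] at this
        exact hne this
      simp [part_apply, hn, hw, act_act, act_one]
    · by_cases ha' : Has a w <;> simp [part_apply, hw, ha']
  have h := mul_mem (mul_mem (hsub [true, false] 0 (by simp) (by simp) (by simp))
    (hsub [true, true] 0 (by simp) (by simp) (by simp)))
    (mul_mem (hsub [false, false] 1 (by simp) (by simp) (by simp)) h01)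
  convert h using 1
  refine Equiv.ext fun ⟨x, w⟩ => ?_
  cases h0 : w 0 <;> cases h1 : w 1 <;>
    simp [BH.SFT.trans, part_apply, has_cons, has_nil, h0, h1]

end

end Vale.Agent.P193.Simple
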